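import Vale.Agent.P095.Equi.Com.Cells

/-!
# P095: witnesses in the small algebras at the two ends
-/

open scoped Kronecker Matrix.Norms.L2Operator
open Matrix

namespace Vale.P095.Equi.Com

open Vale.P101.ZS Vale.P101.ZS.Fl

noncomputable section

variable (p l : ℕ)

/-- The low grid point joins the corner. -/
def splitLow : Fin (nextP p (l + 1)) ≃ (Fin (p + 1 + 1) × Fin p) ⊕ (Fin l × In p) :=
  (eP p (l + 1)).trans
    { toFun := fun z => match z with
        | .inl a => .inl (0, a)
        | .inr (c, a, r) => Fin.cases (.inl (r.succ, a)) (fun c' => .inr (c', a, r)) c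
      invFun := fun z => match z with
        | .inl (i, a) => Fin.cases (.inl a) (fun r => .inr (0, a, r)) i
        | .inr (c', a, r) => .inr (c'.succ, a, r)
      left_inv := fun z => by
        rcases z with a | ⟨c, a, r⟩
        · simp
        · cases c using Fin.cases <;> simp
      right_inv := fun z => by
        rcases z with ⟨i, a⟩ | ⟨c', a, r⟩
        · cases i using Fin.cases <;> simp
        · simp }

/-- The high grid point joins the corner. -/
def splitHigh : Fin (nextP p (l + 1) + 1) ≃ (Fin (p + 1) × Fin (p + 1)) ⊕ (Fin l × In p) :=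
  (eQ p (l + 1)).trans
    { toFun := fun z => match z with
        | .inl b => .inl (0, b)
        | .inr (c, a, b) => Fin.lastCases (.inl (a.succ, b)) (fun c' => .inr (c', a, b)) c
      invFun := fun z => match z with
        | .inl (i, b) => Fin.cases (.inl b) (fun a => .inr (Fin.last l, a, b)) i
        | .inr (c', a, b) => .inr (c'.castSucc, a, b)
      left_inv := fun z => by
        rcases z with b | ⟨c, a, b⟩
        · simp
        · cases c using Fin.lastCases <;> simp
      right_inv := fun z => by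
        rcases z with ⟨i, b⟩ | ⟨c', a, b⟩
        · cases i using Fin.cases <;> simp
        · simp }

variable {p l}

theorem small₀_eq (g : ℝ → Mat p (p + 1)) (A : Matrix (Fin p) (Fin p) ℂ)
    (h0 : g 0 = A ⊗ₖ (1 : Matrix (Fin (p + 1)) (Fin (p + 1)) ℂ))
    (h1 : g (grid (l + 1) 0) = A ⊗ₖ (1 : Matrix (Fin (p + 1)) (Fin (p + 1)) ℂ)) :
    small₀ p (l + 1) g = sumHom (splitLow p l) ((1 : Matrix (Fin (p + 1 + 1)) (Fin (p + 1 + 1)) ℂ) ⊗ₖ A,
      dgHom p (Fin l) fun c => g (grid (l + 1) c.succ)) := by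
  ext x y
  simp only [small₀, sumHom_apply, Matrix.submatrix_apply, splitLow, Equiv.trans_apply,
    Equiv.coe_fn_mk]
  rcases eP p (l + 1) x with a | ⟨c, a, r⟩ <;> rcases eP p (l + 1) y with a' | ⟨c', a', r'⟩
  · simp [h0, Matrix.fromBlocks]
  · cases c' using Fin.cases <;> simp [(Fin.succ_ne_zero _).symm, Matrix.one_apply, Matrix.fromBlocks]
  · cases c using Fin.cases <;> simp [Fin.succ_ne_zero, Matrix.one_apply, Matrix.fromBlocks]
  · cases c using Fin.cases <;> cases c' using Fin.cases <;>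
      simp [dg, dgHom, h1, Matrix.fromBlocks, Fin.succ_ne_zero, (Fin.succ_ne_zero _).symm, Matrix.one_apply, mul_comm]

theorem small₁_eq (hp : 0 < p) (g : ℝ → Mat p (p + 1))
    (B : Matrix (Fin (p + 1)) (Fin (p + 1)) ℂ)
    (h0 : g 1 = (1 : Matrix (Fin p) (Fin p) ℂ) ⊗ₖ B)
    (h1 : g (grid (l + 1) (Fin.last l)) = (1 : Matrix (Fin p) (Fin p) ℂ) ⊗ₖ B) :
    small₁ p (l + 1) hp g = sumHom (splitHigh p l) ((1 : Matrix (Fin (p + 1)) (Fin (p + 1)) ℂ) ⊗ₖ B,
      dgHom p (Fin l) fun c => g (grid (l + 1) c.castSucc)) := by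
  ext x y
  simp only [small₁, sumHom_apply, Matrix.submatrix_apply, splitHigh, Equiv.trans_apply,
    Equiv.coe_fn_mk]
  rcases eQ p (l + 1) x with a | ⟨c, a, r⟩ <;> rcases eQ p (l + 1) y with a' | ⟨c', a', r'⟩
  · simp [h0, Matrix.fromBlocks]
  · cases c' using Fin.lastCases <;> simp [(Fin.succ_ne_zero _).symm, Matrix.one_apply, Matrix.fromBlocks]
  · cases c using Fin.lastCases <;> simp [Fin.succ_ne_zero, Matrix.one_apply, Matrix.fromBlocks]
  · cases c using Fin.lastCases <;> cases c' using Fin.lastCases <;>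
      simp [dg, dgHom, h1, Matrix.fromBlocks, Matrix.one_apply, (Fin.castSucc_lt_last _).ne,
        (Fin.castSucc_lt_last _).ne']

theorem grid_le {c : Fin (l + 1)} : grid (l + 1) c ≤ ((l : ℝ) + 1) / ((l : ℝ) + 2) := by
  unfold grid
  push_cast
  rw [show (l : ℝ) + 1 + 1 = (l : ℝ) + 2 by ring]
  gcongr
  exact_mod_cast Nat.lt_succ_iff.1 c.2

theorem grid_dist {L : ℕ} (c c' : Fin L) (h : (c : ℕ) ≤ c' + 2) (h' : (c' : ℕ) ≤ c + 2) :
    |grid L c - grid L c'| ≤ 2 / ((L : ℝ) + 1) := by
  unfold grid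
  rw [← sub_div, abs_div, abs_of_pos (a := (L : ℝ) + 1) (by positivity)]
  gcongr
  rw [abs_le]
  have e1 : ((c : ℕ) : ℝ) ≤ (c' : ℕ) + 2 := by exact_mod_cast h
  have e2 : ((c' : ℕ) : ℝ) ≤ (c : ℕ) + 2 := by exact_mod_cast h'
  constructor <;> linarith

end

end Vale.P095.Equi.Com
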