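import Vale.Agent.P101.ZStab.StepMap
import Vale.Agent.P101.ZStab.Flip.Assemble

/-!
# P095: weighted permutations almost commuting with block diagonal matrices

Positions are grouped in cells of two or three neighbours; on a cell `pm π * diag w` has an
invertible diagonal self-commutator, and it nearly commutes with a block diagonal matrix whose
neighbouring blocks are close.
-/

open scoped Kronecker Matrix.Norms.L2Operator
open Matrix

namespace Vale.P095.Equi.Com

open Vale.P101.ZS Vale.P101.ZS.Fl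

noncomputable section

/-- The neighbour in the cell. -/
def nxt (N j : ℕ) : ℕ :=
  if N % 2 = 1 ∧ N - 3 ≤ j then (if j = N - 3 then N - 1 else j - 1)
  else (if j % 2 = 0 then j + 1 else j - 1)

/-- The squared weight in the cell. -/
def wsq (N j : ℕ) : ℝ :=
  if N % 2 = 1 ∧ N - 3 ≤ j then (if j = N - 3 then 0 else if j = N - 2 then 1 else 2)
  else (if j % 2 = 0 then 0 else 1)

theorem nxt_spec {N j : ℕ} (hN : 2 ≤ N) (hj : j < N) :
    nxt N j < N ∧ nxt N j ≤ j + 2 ∧ j ≤ nxt N j + 2 := by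
  unfold nxt
  split_ifs <;> omega

theorem nxt_inj {N a b : ℕ} (hN : 2 ≤ N) (ha : a < N) (hb : b < N) (h : nxt N a = nxt N b) :
    a = b := by
  unfold nxt at h
  split_ifs at h <;> omega

theorem wsq_spec {N j : ℕ} (hN : 2 ≤ N) (hj : j < N) :
    0 ≤ wsq N j ∧ wsq N j ≤ 4 ∧ 1 ≤ (wsq N j - wsq N (nxt N j)) ^ 2 := by
  unfold wsq nxt
  split_ifs <;> norm_num <;> omega

/-- The permutation of the positions. -/
def cell {N : ℕ} (hN : 2 ≤ N) : Fin N ≃ Fin N :=
  Equiv.ofBijective (fun j => ⟨nxt N j, (nxt_spec hN j.2).1⟩)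
    ((Finite.injective_iff_bijective (α := Fin N)).1 fun a b h =>
      Fin.ext (nxt_inj hN a.2 b.2 (congrArg Fin.val h)))

theorem cell_val {N : ℕ} (hN : 2 ≤ N) (j : Fin N) : (cell hN j : ℕ) = nxt N j := rfl

/-- The square of the self-commutator. -/
def sc {Z : Type*} [Mul Z] [Sub Z] [Star Z] (x : Z) : Z :=
  (star x * x - x * star x) * (star x * x - x * star x)

section wperm

variable {n : Type*} [Fintype n] [DecidableEq n]

/-- A weighted permutation. -/
def wp (π : n ≃ n) (w : n → ℝ) : Matrix n n ℂ := pm π * Matrix.diagonal fun x => (w x : ℂ)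

theorem sc_wp (π : n ≃ n) (w : n → ℝ) :
    sc (wp π w) = Matrix.diagonal fun x => (((w x ^ 2 - w (π x) ^ 2) ^ 2 : ℝ) : ℂ) := by
  have hstar : star (Matrix.diagonal fun x => (w x : ℂ)) = Matrix.diagonal fun x => (w x : ℂ) := by
    rw [Matrix.star_eq_conjTranspose, Matrix.diagonal_conjTranspose]
    congr 1
    funext x
    simp
  have h1 : star (wp π w) * wp π w = Matrix.diagonal fun x => ((w x ^ 2 : ℝ) : ℂ) := by
    rw [wp, star_mul, hstar, mul_assoc, ← mul_assoc (star (pm π)),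
      Unitary.star_mul_self_of_mem (pm_mem π), one_mul, Matrix.diagonal_mul_diagonal]
    congr 1
    funext x
    push_cast
    ring
  have h2 : wp π w * star (wp π w) = Matrix.diagonal fun x => ((w (π x) ^ 2 : ℝ) : ℂ) := by
    rw [wp, star_mul, hstar, mul_assoc, ← mul_assoc (Matrix.diagonal _),
      Matrix.diagonal_mul_diagonal, pm_star, ← mul_assoc, pm_mul, mul_pm,
      Matrix.submatrix_submatrix, Equiv.symm_symm, Function.comp_id, Function.id_comp,
      Matrix.submatrix_diagonal_equiv]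
    congr 1
    funext x
    simp
    ring
  rw [sc, h1, h2, Matrix.diagonal_sub, Matrix.diagonal_mul_diagonal]
  congr 1
  funext x
  push_cast
  ring

theorem norm_diagonal_le {v : n → ℂ} {c : ℝ} (hc : 0 ≤ c) (h : ∀ x, ‖v x‖ ≤ c) :
    ‖Matrix.diagonal v‖ ≤ c := by
  rw [Matrix.l2_opNorm_diagonal]
  exact (pi_norm_le_iff_of_nonneg hc).2 h

theorem norm_wp_le (π : n ≃ n) {w : n → ℝ} (hw : ∀ x, |w x| ≤ 2) : ‖wp π w‖ ≤ 2 := by
  rw [wp, CStarRing.norm_mem_unitary_mul _ (pm_mem π)]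
  exact norm_diagonal_le (by norm_num) fun x => by
    rw [Complex.norm_real, Real.norm_eq_abs]; exact hw x

theorem norm_wp_comm (π : n ≃ n) {w : n → ℝ} (hw : ∀ x, |w x| ≤ 2) (M : Matrix n n ℂ)
    (hM : ∀ x y, M x y ≠ 0 → w x = w y) :
    ‖wp π w * M - M * wp π w‖ ≤ 2 * ‖M - M.submatrix π.symm π.symm‖ := by
  have hWM : Matrix.diagonal (fun x => (w x : ℂ)) * M = M * Matrix.diagonal fun x => (w x : ℂ) := by
    ext x y
    rw [Matrix.diagonal_mul, Matrix.mul_diagonal]
    by_cases h : M x y = 0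
    · simp [h]
    · rw [hM x y h, mul_comm]
  have e : wp π w * M - M * wp π w =
      pm π * ((M - M.submatrix π.symm π.symm) * Matrix.diagonal fun x => (w x : ℂ)) := by
    have e1 : pm π * M.submatrix π.symm π.symm = M * pm π := by
      rw [pm_mul, mul_pm, Matrix.submatrix_submatrix]
      simp
    rw [sub_mul, mul_sub, ← mul_assoc, ← mul_assoc, e1, wp, mul_assoc, hWM, ← mul_assoc,
      ← mul_assoc]
  rw [e, CStarRing.norm_mem_unitary_mul _ (pm_mem π), mul_comm (2 : ℝ)]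
  exact (norm_mul_le _ _).trans (mul_le_mul_of_nonneg_left
    (norm_diagonal_le (by norm_num) fun x => by
      rw [Complex.norm_real, Real.norm_eq_abs]; exact hw x) (norm_nonneg _))

end wperm

section sum

variable {n α β : Type*} [Fintype n] [DecidableEq n] [Fintype α] [DecidableEq α] [Fintype β]
  [DecidableEq β]

/-- Two diagonal blocks, as a homomorphism. -/
def sumHom (ψ : n ≃ α ⊕ β) : (Matrix α α ℂ × Matrix β β ℂ) →⋆ₙₐ[ℂ] Matrix n n ℂ where
  toFun P := (Matrix.fromBlocks P.1 0 0 P.2).submatrix ψ ψ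
  map_smul' c P := by ext x y; rcases h : ψ x <;> rcases h' : ψ y <;> simp [h, h']
  map_zero' := by ext x y; rcases h : ψ x <;> rcases h' : ψ y <;> simp [h, h']
  map_add' P Q := by ext x y; rcases h : ψ x <;> rcases h' : ψ y <;> simp [h, h']
  map_mul' P Q := by
    rw [Matrix.submatrix_mul_equiv, Matrix.fromBlocks_multiply]
    simp
  map_star' P := by
    show _ = ((Matrix.fromBlocks P.1 0 0 P.2).submatrix ψ ψ)ᴴ
    rw [Matrix.conjTranspose_submatrix, Matrix.fromBlocks_conjTranspose]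
    simp [Matrix.star_eq_conjTranspose]

theorem sumHom_apply (ψ : n ≃ α ⊕ β) (P : Matrix α α ℂ) (Q : Matrix β β ℂ) :
    sumHom ψ (P, Q) = (Matrix.fromBlocks P 0 0 Q).submatrix ψ ψ := rfl

end sum

variable {p : ℕ} {n : Type*} [Fintype n] [DecidableEq n] {K : Type*} [Fintype K] [DecidableEq K]

/-- One weighted permutation for all block diagonal matrices with close neighbouring blocks. -/
theorem exists_wp {N M : ℕ} (hN : 2 ≤ N) (hM : 2 ≤ M)
    (ψ : n ≃ (Fin N × K) ⊕ (Fin M × In p)) :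
    ∃ (π : n ≃ n) (w : n → ℝ), (∀ x, |w x| ≤ 2) ∧ (∀ x, 1 ≤ (w x ^ 2 - w (π x) ^ 2) ^ 2) ∧
      ∀ (A : Matrix K K ℂ) (G : Fin M → Mat p (p + 1)) (ε : ℝ), 0 ≤ ε →
        (∀ c c' : Fin M, (c : ℕ) ≤ c' + 2 → (c' : ℕ) ≤ c + 2 → ‖G c - G c'‖ ≤ ε) →
        ‖wp π w * sumHom ψ ((1 : Matrix (Fin N) (Fin N) ℂ) ⊗ₖ A, dgHom p (Fin M) G) -
          sumHom ψ ((1 : Matrix (Fin N) (Fin N) ℂ) ⊗ₖ A, dgHom p (Fin M) G) * wp π w‖ ≤ 2 * ε := by
  let e : (Fin N × K) ⊕ (Fin M × In p) ≃ (Fin N × K) ⊕ (Fin M × In p) :=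
    Equiv.sumCongr ((cell hN).prodCongr (Equiv.refl K)) ((cell hM).prodCongr (Equiv.refl _))
  let W : (Fin N × K) ⊕ (Fin M × In p) → ℝ :=
    Sum.elim (fun x => Real.sqrt (wsq N x.1)) fun x => Real.sqrt (wsq M x.1)
  let π : n ≃ n := (ψ.trans e).trans ψ.symm
  have hW : ∀ z, |W z| ≤ 2 ∧ 1 ≤ (W z ^ 2 - W (e z) ^ 2) ^ 2 := by
    have key : ∀ {N' : ℕ} (h : 2 ≤ N') (i : Fin N'), |Real.sqrt (wsq N' i)| ≤ 2 ∧
        1 ≤ (Real.sqrt (wsq N' i) ^ 2 - Real.sqrt (wsq N' (cell h i)) ^ 2) ^ 2 := fun {N'} h i => by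
      obtain ⟨h0, h4, h1⟩ := wsq_spec h i.2
      obtain ⟨h0', -, -⟩ := wsq_spec h (cell h i).2
      rw [Real.sq_sqrt h0, Real.sq_sqrt h0', abs_of_nonneg (Real.sqrt_nonneg _), cell_val]
      exact ⟨Real.sqrt_le_iff.2 ⟨by norm_num, by linarith⟩, h1⟩
    rintro (⟨i, k⟩ | ⟨c, u⟩)
    · exact key hN i
    · exact key hM c
  refine ⟨π, fun x => W (ψ x), fun x => (hW _).1, fun x => ?_, fun A G ε hε hG => ?_⟩
  · have he : ψ (π x) = e (ψ x) := by simp [π]
    simp only []
    rw [he]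
    exact (hW (ψ x)).2
  refine (norm_wp_comm π (fun x => (hW _).1) _ fun x y h => ?_).trans ?_
  · rw [sumHom_apply, Matrix.submatrix_apply] at h
    show W (ψ x) = W (ψ y)
    rcases hx : ψ x with ⟨i, k⟩ | ⟨c, u⟩ <;> rcases hy : ψ y with ⟨i', k'⟩ | ⟨c', u'⟩ <;>
      simp only [hx, hy, Matrix.fromBlocks_apply₁₁, Matrix.fromBlocks_apply₁₂,
        Matrix.fromBlocks_apply₂₁, Matrix.fromBlocks_apply₂₂, Matrix.zero_apply, ne_eq,
        not_true_eq_false] at h ⊢
    · rw [show i = i' by by_contra hne; exact h (by simp [Matrix.one_apply, hne])]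
      rfl
    · rw [show c = c' by by_contra hne; exact h (if_neg hne)]
      rfl
  · have e1 : (sumHom ψ ((1 : Matrix (Fin N) (Fin N) ℂ) ⊗ₖ A, dgHom p (Fin M) G)).submatrix
        π.symm π.symm = sumHom ψ ((1 : Matrix (Fin N) (Fin N) ℂ) ⊗ₖ A,
          dgHom p (Fin M) fun c => G ((cell hM).symm c)) := by
      ext x y
      have hh : ∀ z, ψ (π.symm z) = e.symm (ψ z) := fun z => by simp [π]
      simp only [sumHom_apply, Matrix.submatrix_apply, hh]
      rcases ψ x with ⟨i, k⟩ | ⟨c, u⟩ <;> rcases ψ y with ⟨i', k'⟩ | ⟨c', u'⟩ <;>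
        simp only [e, Equiv.sumCongr_symm, Equiv.sumCongr_apply, Sum.map_inl, Sum.map_inr,
          Equiv.prodCongr_symm, Equiv.prodCongr_apply, Prod.map, Equiv.refl_symm, Equiv.refl_apply,
          Matrix.fromBlocks_apply₁₁, Matrix.fromBlocks_apply₁₂, Matrix.fromBlocks_apply₂₁,
          Matrix.fromBlocks_apply₂₂, Matrix.zero_apply]
      · simp [Matrix.one_apply]
      · show (if _ = _ then _ else 0) = if _ = _ then _ else 0
        simp only [(cell hM).symm.injective.eq_iff]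
    rw [e1, ← map_sub]
    refine mul_le_mul_of_nonneg_left
      ((NonUnitalStarAlgHom.norm_apply_le (sumHom ψ) _).trans ?_) (by norm_num)
    rw [Prod.mk_sub_mk, sub_self, ← map_sub, Prod.norm_def]
    refine max_le (by simpa using hε) ((NonUnitalStarAlgHom.norm_apply_le (dgHom p (Fin M)) _).trans
      ((pi_norm_le_iff_of_nonneg hε).2 fun c => ?_))
    obtain ⟨-, h1, h2⟩ := nxt_spec hM ((cell hM).symm c).2
    have hc : (c : ℕ) = nxt M ((cell hM).symm c) := by rw [← cell_val hM, Equiv.apply_symm_apply]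
    exact hG _ _ (by omega) (by omega)

end

end Vale.P095.Equi.Com
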